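import Vale.Agent.P287.R2.H11.QQ
import Mathlib.Algebra.CubicDiscriminant

/-!
P287, many planes, row R1 (helper11): three conics without common zero, two of them in the ideal
`(x 1, x 2)`; then `x 0 * det M` is not a combination of them with linear coefficients.
-/

namespace Vale.Agent.P287.R2.H11

open Module Submodule Vale.Agent.P287.R2.H248

/-- the three-space -/
abbrev V3 : Type := Fin 3 → ℂ

/-- ten points which impose independent conditions on cubics -/
noncomputable def pt : Fin 10 → V3 :=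
  ![![1, 0, 0], ![0, 1, 0], ![0, 0, 1], ![1, 1, 0], ![1, -1, 0], ![1, 0, 1], ![1, 0, -1],
    ![0, 1, 1], ![0, 1, -1], ![1, 1, 1]]

/-- coordinates -/
noncomputable def X (i : Fin 3) : V3 →ₗ[ℂ] ℂ := LinearMap.proj i

lemma X_apply (i : Fin 3) (x : V3) : X i x = x i := rfl

lemma coeff_zero (c : Fin 10 → ℂ)
    (h : ∀ m n o : V3 →ₗ[ℂ] ℂ, ∑ p, c p * (m (pt p) * n (pt p) * o (pt p)) = 0) : c = 0 := by
  have h9 := h (X 0) (X 1) (X 2)
  have h3 := h (X 0) (X 1) (X 0 + X 1)
  have h4 := h (X 0) (X 1) (X 0 - X 1)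
  have h5 := h (X 0) (X 2) (X 0 + X 2)
  have h6 := h (X 0) (X 2) (X 0 - X 2)
  have h7 := h (X 1) (X 2) (X 1 + X 2)
  have h8 := h (X 1) (X 2) (X 1 - X 2)
  have h0 := h (X 0) (X 0) (X 0)
  have h1 := h (X 1) (X 1) (X 1)
  have h2 := h (X 2) (X 2) (X 2)
  clear h
  simp only [Fin.sum_univ_succ, Fin.sum_univ_zero, pt, LinearMap.add_apply, LinearMap.sub_apply,
    X_apply] at h0 h1 h2 h3 h4 h5 h6 h7 h8 h9
  simp at h0 h1 h2 h3 h4 h5 h6 h7 h8 h9
  rw [h9, zero_mul, add_zero] at h3 h5 h7
  have t2 : (1 + 1 : ℂ) ≠ 0 := by norm_num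
  have k3 : c 3 = 0 := (mul_eq_zero.mp h3).resolve_right t2
  have k5 : c 5 = 0 := (mul_eq_zero.mp h5).resolve_right t2
  have k7 : c 7 = 0 := (mul_eq_zero.mp h7).resolve_right t2
  have k0 : c 0 = 0 := by linear_combination h0 - k3 - h4 - k5 - h6 - h9
  have k1 : c 1 = 0 := by linear_combination h1 - k3 + h4 - k7 - h8 - h9
  have k2 : c 2 = 0 := by linear_combination h2 - k5 + h6 - k7 + h8 - h9
  funext p
  fin_cases p <;> assumption


/-- a functional which kills nine products and not all products of three functionals -/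
lemma exists_tau (q : Fin 3 → V3 → ℂ) : ∃ τ : (V3 → ℂ) →ₗ[ℂ] ℂ,
    (∀ i j, τ (fun x => x i * q j x) = 0) ∧
    ∃ m n o : V3 →ₗ[ℂ] ℂ, τ (fun x => m x * n x * o x) ≠ 0 := by
  let ev : Fin 10 → (V3 → ℂ) →ₗ[ℂ] ℂ := fun p => LinearMap.proj (pt p)
  let F : (Fin 10 → ℂ) →ₗ[ℂ] (Fin 3 × Fin 3 → ℂ) :=
    LinearMap.pi fun ij => ∑ p, (pt p ij.1 * q ij.2 (pt p)) • (LinearMap.proj p)
  have hF : ∀ c ij, F c ij = ∑ p, c p * (pt p ij.1 * q ij.2 (pt p)) := by
    intro c ij
    simp only [F, LinearMap.pi_apply, LinearMap.sum_apply, LinearMap.smul_apply,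
      LinearMap.proj_apply, smul_eq_mul]
    exact Finset.sum_congr rfl fun p _ => mul_comm _ _
  have hker : LinearMap.ker F ≠ ⊥ := by
    apply LinearMap.ker_ne_bot_of_finrank_lt
    rw [Module.finrank_fintype_fun_eq_card, Module.finrank_fintype_fun_eq_card]
    decide
  obtain ⟨c, hc, hc0⟩ := Submodule.exists_mem_ne_zero_of_ne_bot hker
  refine ⟨∑ p, c p • ev p, ?_, ?_⟩
  · intro i j
    have h1 := congr_fun (LinearMap.mem_ker.mp hc) (i, j)
    rw [hF] at h1
    simp only [LinearMap.sum_apply, LinearMap.smul_apply, ev, LinearMap.proj_apply, smul_eq_mul]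
    exact h1
  · by_contra hne
    push Not at hne
    apply hc0
    apply coeff_zero
    intro m n o
    have h1 := hne m n o
    simp only [LinearMap.sum_apply, LinearMap.smul_apply, ev, LinearMap.proj_apply,
      smul_eq_mul] at h1
    exact h1

lemma bl (α β γ : Fin 3 → ℂ)
    (hno : ∀ s r : ℂ, (∀ j, s ^ 2 * α j + 2 * s * r * β j + r ^ 2 * γ j = 0) → s = 0 ∧ r = 0)
    (a0 a1 a2 a3 : ℂ) (h1 : ∀ j, α j * a0 + 2 * β j * a1 + γ j * a2 = 0)
    (h2 : ∀ j, α j * a1 + 2 * β j * a2 + γ j * a3 = 0) : a0 = 0 ∧ a1 = 0 ∧ a2 = 0 ∧ a3 = 0 := by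
  have key : a0 * a2 - a1 ^ 2 = 0 ∧ a0 * a3 - a1 * a2 = 0 ∧ a1 * a3 - a2 ^ 2 = 0 := by
    by_contra hne
    obtain ⟨s, r, hsr, hq⟩ := quad_zero (a1 * a3 - a2 ^ 2) (-(a0 * a3 - a1 * a2) / 2)
      (a0 * a2 - a1 ^ 2)
    have hz : ∀ j, s ^ 2 * α j + 2 * s * r * β j + r ^ 2 * γ j = 0 := by
      intro j
      -- (h3, h2', h1') proportional to (α, 2β, γ)
      have e1 : 2 * β j * (a0 * a2 - a1 ^ 2) = - γ j * (a0 * a3 - a1 * a2) := by
        linear_combination a0 * h2 j - a1 * h1 j
      have e2 : α j * (a0 * a2 - a1 ^ 2) = γ j * (a1 * a3 - a2 ^ 2) := by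
        linear_combination a2 * h1 j - a1 * h2 j
      have e3 : α j * (a0 * a3 - a1 * a2) = - 2 * β j * (a1 * a3 - a2 ^ 2) := by
        linear_combination a3 * h1 j - a2 * h2 j
      by_cases k1 : a0 * a2 - a1 ^ 2 = 0
      · by_cases k3 : a1 * a3 - a2 ^ 2 = 0
        · have k2 : a0 * a3 - a1 * a2 ≠ 0 := fun k2 => hne ⟨k1, k2, k3⟩
          have g1 : γ j = 0 := by
            rw [k1, mul_zero] at e1
            have : γ j * (a0 * a3 - a1 * a2) = 0 := by linear_combination e1
            exact (mul_eq_zero.mp this).resolve_right k2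
          have g2 : α j = 0 := by
            rw [k3, mul_zero] at e3
            exact (mul_eq_zero.mp e3).resolve_right k2
          have g3 : s * r = 0 := by
            have : (s * r) * (a0 * a3 - a1 * a2) = 0 := by
              rw [k1, k3] at hq
              linear_combination -hq
            exact (mul_eq_zero.mp this).resolve_right k2
          rw [g1, g2]
          linear_combination 2 * β j * g3
        · have : (a1 * a3 - a2 ^ 2) * (s ^ 2 * α j + 2 * s * r * β j + r ^ 2 * γ j) = 0 := by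
            linear_combination α j * hq - r ^ 2 * e2 + s * r * e3
          exact (mul_eq_zero.mp this).resolve_left k3
      · have : (a0 * a2 - a1 ^ 2) * (s ^ 2 * α j + 2 * s * r * β j + r ^ 2 * γ j) = 0 := by
          linear_combination γ j * hq + s ^ 2 * e2 + s * r * e1
        exact (mul_eq_zero.mp this).resolve_left k1
    obtain ⟨hs, hr⟩ := hno s r hz
    rcases hsr with h | h
    · exact h hs
    · exact h hr
  obtain ⟨k1, k2, k3⟩ := key
  have ha0 : a0 = 0 := by
    by_contra hne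
    obtain ⟨hs, hr⟩ := hno a0 a1 (by
      intro j
      linear_combination a0 * h1 j - γ j * k1)
    exact hne hs
  have ha1 : a1 = 0 := by
    rw [ha0] at k1
    have : a1 ^ 2 = 0 := by linear_combination -k1
    exact pow_eq_zero_iff (two_ne_zero) |>.mp this
  have ha2 : a2 = 0 := by
    rw [ha1] at k3
    have : a2 ^ 2 = 0 := by linear_combination -k3
    exact pow_eq_zero_iff (two_ne_zero) |>.mp this
  refine ⟨ha0, ha1, ha2, ?_⟩
  by_contra hne
  obtain ⟨hs, hr⟩ := hno 0 1 (by
    intro j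
    have := h2 j
    rw [ha1, ha2] at this
    have h3 : γ j * a3 = 0 := by linear_combination this
    have h4 : γ j = 0 := (mul_eq_zero.mp h3).resolve_right hne
    rw [h4]
    ring)
  exact one_ne_zero hr

/-- coordinates adapted to a nonzero functional -/
lemma adapted (l : V3 →ₗ[ℂ] ℂ) (hl : l ≠ 0) : ∃ (e0 k1 k2 : V3) (u v : V3 →ₗ[ℂ] ℂ),
    (∀ x, x = l x • e0 + u x • k1 + v x • k2) ∧
    (∀ s r : ℂ, s • k1 + r • k2 = 0 → s = 0 ∧ r = 0) := by
  obtain ⟨e, he⟩ : ∃ e, l e ≠ 0 := by
    by_contra hne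
    push Not at hne
    exact hl (LinearMap.ext hne)
  have hk : finrank ℂ (LinearMap.ker l) = 2 := by
    have h1 := LinearMap.finrank_range_add_finrank_ker l
    have h2 : finrank ℂ (LinearMap.range l) = 1 := by
      rw [LinearMap.range_eq_top.mpr (LinearMap.surjective hl), finrank_top, finrank_self]
    rw [h2, Module.finrank_fin_fun] at h1
    omega
  let b := Module.finBasisOfFinrankEq ℂ (LinearMap.ker l) hk
  set e0 : V3 := (l e)⁻¹ • e with he0
  have hle : l e0 = 1 := by
    rw [he0, map_smul, smul_eq_mul, inv_mul_cancel₀ he]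
  let π : V3 →ₗ[ℂ] LinearMap.ker l := LinearMap.codRestrict (LinearMap.ker l)
    (LinearMap.id - l.smulRight e0) (by
      intro x
      rw [LinearMap.mem_ker]
      simp only [LinearMap.sub_apply, LinearMap.id_apply, LinearMap.smulRight_apply, map_sub,
        map_smul, smul_eq_mul, hle, mul_one, sub_self])
  have hπ : ∀ x, (π x : V3) = x - l x • e0 := fun x => rfl
  refine ⟨e0, b 0, b 1, (b.coord 0).comp π, (b.coord 1).comp π, ?_, ?_⟩
  · intro x
    have h1 := b.sum_repr (π x)
    rw [Fin.sum_univ_two] at h1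
    have h2 := congr_arg (Subtype.val) h1
    rw [Submodule.coe_add, Submodule.coe_smul, Submodule.coe_smul, hπ] at h2
    rw [add_assoc]
    have h3 : ((b.coord 0).comp π) x = b.repr (π x) 0 := rfl
    have h4 : ((b.coord 1).comp π) x = b.repr (π x) 1 := rfl
    rw [h3, h4, h2]
    abel
  · intro s r h
    have h1 : s • b 0 + r • b 1 = 0 := Subtype.ext h
    have h2 := b.linearIndependent
    have h3 := Fintype.linearIndependent_iff.mp h2 ![s, r] (by
      rw [Fin.sum_univ_two]
      exact h1)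
    exact ⟨h3 0, h3 1⟩

/-- **Three conics without common zero, a functional on cubics killing the ideal: it kills no
multiple of a nonzero linear form unless it is zero.** -/
lemma tri_zero (τ : (V3 → ℂ) →ₗ[ℂ] ℂ) (B : Fin 3 → V3 →ₗ[ℂ] V3 →ₗ[ℂ] ℂ)
    (hB : ∀ j u v, B j u v = B j v u) (hno : ∀ x, (∀ j, B j x x = 0) → x = 0)
    (hτ : ∀ (m : V3 →ₗ[ℂ] ℂ) j, τ (fun x => m x * B j x x) = 0) (l : V3 →ₗ[ℂ] ℂ) (hl : l ≠ 0)
    (h : ∀ m n : V3 →ₗ[ℂ] ℂ, τ (fun x => l x * m x * n x) = 0) (m n o : V3 →ₗ[ℂ] ℂ) :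
    τ (fun x => m x * n x * o x) = 0 := by
  obtain ⟨e0, k1, k2, u, v, hx, hk⟩ := adapted l hl
  have hm : ∀ (m : V3 →ₗ[ℂ] ℂ) x, m x = l x * m e0 + u x * m k1 + v x * m k2 := by
    intro m x
    conv_lhs => rw [hx x]
    simp only [map_add, map_smul, smul_eq_mul]
  have hBx : ∀ j x, B j x x = l x * (l x * B j e0 e0 + u x * (2 * B j e0 k1)
      + v x * (2 * B j e0 k2)) + (u x ^ 2 * B j k1 k1 + 2 * u x * v x * B j k1 k2
      + v x ^ 2 * B j k2 k2) := by
    intro j x
    conv_lhs => rw [hx x]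
    simp only [map_add, map_smul, smul_eq_mul, LinearMap.add_apply, LinearMap.smul_apply]
    rw [hB j k1 e0, hB j k2 e0, hB j k2 k1]
    ring
  set a0 := τ (fun x => u x * u x * u x) with ha0
  set a1 := τ (fun x => u x * u x * v x) with ha1
  set a2 := τ (fun x => u x * v x * v x) with ha2
  set a3 := τ (fun x => v x * v x * v x) with ha3
  have e1 : ∀ j, B j k1 k1 * a0 + 2 * B j k1 k2 * a1 + B j k2 k2 * a2 = 0 := by
    intro j
    have g1 := hτ u j
    have g2 : (fun x => u x * B j x x) = (fun x => l x * (B j e0 e0 • l + (2 * B j e0 k1) • u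
        + (2 * B j e0 k2) • v) x * u x) + (B j k1 k1 • (fun x => u x * u x * u x)
        + (2 * B j k1 k2) • (fun x => u x * u x * v x)
        + B j k2 k2 • (fun x => u x * v x * v x)) := by
      funext x
      simp only [Pi.add_apply, Pi.smul_apply, smul_eq_mul, LinearMap.add_apply,
        LinearMap.smul_apply]
      rw [hBx]
      ring
    rw [g2, map_add, h, zero_add, map_add, map_add, map_smul, map_smul, map_smul] at g1
    exact g1
  have e2 : ∀ j, B j k1 k1 * a1 + 2 * B j k1 k2 * a2 + B j k2 k2 * a3 = 0 := by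
    intro j
    have g1 := hτ v j
    have g2 : (fun x => v x * B j x x) = (fun x => l x * (B j e0 e0 • l + (2 * B j e0 k1) • u
        + (2 * B j e0 k2) • v) x * v x) + (B j k1 k1 • (fun x => u x * u x * v x)
        + (2 * B j k1 k2) • (fun x => u x * v x * v x)
        + B j k2 k2 • (fun x => v x * v x * v x)) := by
      funext x
      simp only [Pi.add_apply, Pi.smul_apply, smul_eq_mul, LinearMap.add_apply,
        LinearMap.smul_apply]
      rw [hBx]
      ring
    rw [g2, map_add, h, zero_add, map_add, map_add, map_smul, map_smul, map_smul] at g1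
    exact g1
  obtain ⟨z0, z1, z2, z3⟩ := bl (fun j => B j k1 k1) (fun j => B j k1 k2) (fun j => B j k2 k2)
    (by
      intro s r hsr
      apply hk
      apply hno
      intro j
      have := hsr j
      simp only [map_add, map_smul, smul_eq_mul, LinearMap.add_apply, LinearMap.smul_apply]
      rw [hB j k2 k1]
      linear_combination this) a0 a1 a2 a3 e1 e2
  have g3 : (fun x => m x * n x * o x) =
      (fun x => l x * (m e0 • n) x * o x) + (fun x => l x * (n e0 • (m k1 • u + m k2 • v)) x * o x)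
      + (fun x => l x * (o e0 • (m k1 • u + m k2 • v)) x * (n k1 • u + n k2 • v) x)
      + ((m k1 * n k1 * o k1) • (fun x => u x * u x * u x)
        + (m k1 * n k1 * o k2 + m k1 * n k2 * o k1 + m k2 * n k1 * o k1)
          • (fun x => u x * u x * v x)
        + (m k1 * n k2 * o k2 + m k2 * n k2 * o k1 + m k2 * n k1 * o k2)
          • (fun x => u x * v x * v x)
        + (m k2 * n k2 * o k2) • (fun x => v x * v x * v x)) := by
    funext x
    simp only [Pi.add_apply, Pi.smul_apply, smul_eq_mul, LinearMap.add_apply,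
      LinearMap.smul_apply]
    rw [hm m x, hm n x, hm o x]
    ring
  rw [g3, map_add, map_add, map_add, h, h, h, map_add, map_add, map_add, map_smul, map_smul,
    map_smul, map_smul, ← ha0, ← ha1, ← ha2, ← ha3, z0, z1, z2, z3]
  simp

/-- symmetrisation -/
noncomputable def sy (C : V3 →ₗ[ℂ] V3 →ₗ[ℂ] ℂ) : V3 →ₗ[ℂ] V3 →ₗ[ℂ] ℂ :=
  (1 / 2 : ℂ) • (C + C.flip)

lemma sy_apply (C : V3 →ₗ[ℂ] V3 →ₗ[ℂ] ℂ) (u v : V3) : sy C u v = (1 / 2) * (C u v + C v u) := by
  simp [sy]
  ring

lemma sy_symm (C : V3 →ₗ[ℂ] V3 →ₗ[ℂ] ℂ) (u v : V3) : sy C u v = sy C v u := by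
  rw [sy_apply, sy_apply, add_comm]

lemma sy_self (C : V3 →ₗ[ℂ] V3 →ₗ[ℂ] ℂ) (u : V3) : sy C u u = C u u := by
  rw [sy_apply]
  ring

lemma two_conics (C C' : V3 →ₗ[ℂ] V3 →ₗ[ℂ] ℂ) : ∃ v, v ≠ 0 ∧ C v v = 0 ∧ C' v v = 0 := by
  obtain ⟨v, -, h0, h1, h2⟩ := common_zero (sy_symm C) (sy_symm C') (P := ⊤)
    (by rw [finrank_top, Module.finrank_fin_fun])
  rw [sy_self] at h1 h2
  exact ⟨v, h0, h1, h2⟩

/-- the product of two functionals -/
noncomputable def pr (m n : V3 →ₗ[ℂ] ℂ) : V3 →ₗ[ℂ] V3 →ₗ[ℂ] ℂ := m.smulRight n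

lemma pr_apply (m n : V3 →ₗ[ℂ] ℂ) (u v : V3) : pr m n u v = m u * n v := by
  simp [pr]

lemma binary_cubic (a b c d : ℂ) : ∃ s t : ℂ, (s ≠ 0 ∨ t ≠ 0) ∧
    a * s ^ 3 + b * s ^ 2 * t + c * s * t ^ 2 + d * t ^ 3 = 0 := by
  by_cases ha : a = 0
  · exact ⟨1, 0, Or.inl one_ne_zero, by rw [ha]; ring⟩
  · obtain ⟨z, hz⟩ := IsAlgClosed.exists_root (Cubic.toPoly ⟨a, b, c, d⟩) (by
      rw [Cubic.degree_of_a_ne_zero' ha]
      decide)
    refine ⟨z, 1, Or.inr one_ne_zero, ?_⟩
    have h1 : a * z ^ 3 + b * z ^ 2 + c * z + d = 0 := by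
      simpa [Cubic.toPoly, Polynomial.IsRoot] using hz
    linear_combination h1

lemma prod_zero {W : Type*} [AddCommGroup W] [Module ℂ W] (f g : W →ₗ[ℂ] ℂ)
    (h : ∀ x, f x * g x = 0) : (∀ x, f x = 0) ∨ (∀ x, g x = 0) := by
  by_contra hne
  push Not at hne
  obtain ⟨⟨x, hx⟩, ⟨y, hy⟩⟩ := hne
  have h1 : g x = 0 := (mul_eq_zero.mp (h x)).resolve_left hx
  have h2 : f y = 0 := (mul_eq_zero.mp (h y)).resolve_right hy
  have h3 := h (x + y)
  rw [map_add, map_add, h1, h2, add_zero, zero_add] at h3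
  rcases mul_eq_zero.mp h3 with h | h
  · exact hx h
  · exact hy h

lemma prop_of_ker (m n : V3 →ₗ[ℂ] ℂ) (hm : m ≠ 0) (h : ∀ x, m x = 0 → n x = 0) :
    ∃ κ : ℂ, ∀ x, n x = κ * m x := by
  obtain ⟨e, he⟩ : ∃ e, m e ≠ 0 := by
    by_contra hne
    push Not at hne
    exact hm (LinearMap.ext hne)
  refine ⟨n e / m e, fun x => ?_⟩
  have h1 := h (x - (m x / m e) • e) (by
    rw [map_sub, map_smul, smul_eq_mul, div_mul_cancel₀ _ he, sub_self])
  rw [map_sub, map_smul, smul_eq_mul, sub_eq_zero] at h1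
  rw [h1]
  ring

lemma rank_one (p q r s : V3 →ₗ[ℂ] ℂ) (h : ∀ x, p x * s x = q x * r x) :
    (∃ a b : ℂ, (a ≠ 0 ∨ b ≠ 0) ∧ (∀ x, a * p x + b * q x = 0) ∧ ∀ x, a * r x + b * s x = 0) ∨
    (∃ a b : ℂ, (a ≠ 0 ∨ b ≠ 0) ∧ (∀ x, a * p x + b * r x = 0) ∧ ∀ x, a * q x + b * s x = 0) := by
  by_cases hp : p = 0
  · have h1 : ∀ x, q x * r x = 0 := by
      intro x
      rw [← h x, hp]
      simp
    rcases prod_zero q r h1 with h2 | h2
    · right
      refine ⟨1, 0, Or.inl one_ne_zero, fun x => ?_, fun x => ?_⟩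
      · rw [hp]; simp
      · rw [h2]; simp
    · left
      refine ⟨1, 0, Or.inl one_ne_zero, fun x => ?_, fun x => ?_⟩
      · rw [hp]; simp
      · rw [h2]; simp
  · have hk : (∀ x : LinearMap.ker p, q.comp (LinearMap.ker p).subtype x = 0) ∨
        (∀ x : LinearMap.ker p, r.comp (LinearMap.ker p).subtype x = 0) := by
      apply prod_zero
      intro x
      have h1 := h x
      rw [LinearMap.mem_ker.mp x.2, zero_mul] at h1
      exact h1.symm
    rcases hk with hk | hk
    · obtain ⟨κ, hκ⟩ := prop_of_ker p q hp fun x hx => hk ⟨x, hx⟩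
      left
      have h2 : ∀ x, p x * (s - κ • r) x = 0 := by
        intro x
        have h3 := h x
        rw [hκ] at h3
        simp only [LinearMap.sub_apply, LinearMap.smul_apply, smul_eq_mul]
        linear_combination h3
      rcases prod_zero _ _ h2 with h4 | h4
      · exact absurd (LinearMap.ext h4) hp
      · refine ⟨κ, -1, Or.inr (by norm_num), fun x => ?_, fun x => ?_⟩
        · rw [hκ]; ring
        · have h5 := h4 x
          simp only [LinearMap.sub_apply, LinearMap.smul_apply, smul_eq_mul] at h5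
          linear_combination -h5
    · obtain ⟨κ, hκ⟩ := prop_of_ker p r hp fun x hx => hk ⟨x, hx⟩
      right
      have h2 : ∀ x, p x * (s - κ • q) x = 0 := by
        intro x
        have h3 := h x
        rw [hκ] at h3
        simp only [LinearMap.sub_apply, LinearMap.smul_apply, smul_eq_mul]
        linear_combination h3
      rcases prod_zero _ _ h2 with h4 | h4
      · exact absurd (LinearMap.ext h4) hp
      · refine ⟨κ, -1, Or.inr (by norm_num), fun x => ?_, fun x => ?_⟩
        · rw [hκ]; ring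
        · have h5 := h4 x
          simp only [LinearMap.sub_apply, LinearMap.smul_apply, smul_eq_mul] at h5
          linear_combination -h5

/-- a system of two equations in two unknowns with zero determinant has a nonzero solution -/
lemma two_by_two (a b c d : ℂ) (h : a * d - b * c = 0) :
    ∃ s t : ℂ, (s ≠ 0 ∨ t ≠ 0) ∧ s * a + t * b = 0 ∧ s * c + t * d = 0 := by
  by_cases h1 : a = 0 ∧ b = 0
  · by_cases h2 : c = 0 ∧ d = 0
    · exact ⟨1, 0, Or.inl one_ne_zero, by rw [h1.1]; ring, by rw [h2.1]; ring⟩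
    · refine ⟨d, -c, ?_, by rw [h1.1, h1.2]; ring, by ring⟩
      by_contra hne
      push Not at hne
      exact h2 ⟨neg_eq_zero.mp hne.2, hne.1⟩
  · refine ⟨b, -a, ?_, by ring, by linear_combination -h⟩
    by_contra hne
    push Not at hne
    exact h1 ⟨neg_eq_zero.mp hne.2, hne.1⟩

/-- **The determinant is not a multiple of the third conic.** -/
lemma det_mult (p q r s : V3 →ₗ[ℂ] ℂ) (B : V3 →ₗ[ℂ] V3 →ₗ[ℂ] ℂ)
    (hno : ∀ x : V3, x 1 * p x + x 2 * q x = 0 → x 1 * r x + x 2 * s x = 0 → B x x = 0 → x = 0)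
    (c : ℂ) (h : ∀ x, p x * s x - q x * r x = c * B x x) : False := by
  have hcomb : ∀ (m : V3 →ₗ[ℂ] ℂ) (σ t a b : ℂ),
      m ![σ, t * a, t * b] = σ * m ![1, 0, 0] + t * (a * m ![0, 1, 0] + b * m ![0, 0, 1]) := by
    intro m σ t a b
    have h1 : (![σ, t * a, t * b] : V3) = σ • ![1, 0, 0] + t • (a • ![0, 1, 0] + b • ![0, 0, 1]) := by
      funext i
      fin_cases i <;> simp
    rw [h1]
    simp only [map_add, map_smul, smul_eq_mul]
  by_cases hc : c = 0
  · have h' : ∀ x, p x * s x = q x * r x := by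
      intro x
      have h1 := h x
      rw [hc, zero_mul, sub_eq_zero] at h1
      exact h1
    rcases rank_one p q r s h' with ⟨a, b, hab, k1, k2⟩ | ⟨a, b, hab, k1, k2⟩
    · obtain ⟨σ, t, hst, hq⟩ := quad_zero (B ![1, 0, 0] ![1, 0, 0])
        (sy B ![1, 0, 0] ![0, a, b]) (B ![0, a, b] ![0, a, b])
      have hx : (![σ, t * a, t * b] : V3) = σ • ![1, 0, 0] + t • ![0, a, b] := by
        funext i
        fin_cases i <;> simp
      have h0 := hno ![σ, t * a, t * b]
        (by
          have := k1 ![σ, t * a, t * b]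
          simp only [Matrix.cons_val_one, Matrix.cons_val_zero, Matrix.cons_val]
          linear_combination t * this)
        (by
          have := k2 ![σ, t * a, t * b]
          simp only [Matrix.cons_val_one, Matrix.cons_val_zero, Matrix.cons_val]
          linear_combination t * this)
        (by
          rw [← sy_self, hx, bil_add (sy B) (sy_symm B), sy_self, sy_self]
          exact hq)
      have g0 : σ = 0 := congr_fun h0 0
      have g1 : t * a = 0 := congr_fun h0 1
      have g2 : t * b = 0 := congr_fun h0 2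
      have ht : t ≠ 0 := by
        rcases hst with h | h
        · exact absurd g0 h
        · exact h
      rcases hab with h | h
      · exact h ((mul_eq_zero.mp g1).resolve_left ht)
      · exact h ((mul_eq_zero.mp g2).resolve_left ht)
    · rcases hab with ha | hb
      · obtain ⟨v, hv, v1, v2⟩ := two_conics (pr (LinearMap.proj 1) r + pr (LinearMap.proj 2) s) B
        simp only [LinearMap.add_apply, pr_apply, LinearMap.proj_apply] at v1
        apply hv
        refine hno v ?_ v1 v2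
        have : a * (v 1 * p v + v 2 * q v) = 0 := by
          linear_combination v 1 * k1 v + v 2 * k2 v - b * v1
        exact (mul_eq_zero.mp this).resolve_left ha
      · obtain ⟨v, hv, v1, v2⟩ := two_conics (pr (LinearMap.proj 1) p + pr (LinearMap.proj 2) q) B
        simp only [LinearMap.add_apply, pr_apply, LinearMap.proj_apply] at v1
        apply hv
        refine hno v v1 ?_ v2
        have : b * (v 1 * r v + v 2 * s v) = 0 := by
          linear_combination v 1 * k1 v + v 2 * k2 v - a * v1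
        exact (mul_eq_zero.mp this).resolve_left hb
  · obtain ⟨a, b, hab, hF⟩ := binary_cubic
      (p ![1, 0, 0] * r ![0, 1, 0] - r ![1, 0, 0] * p ![0, 1, 0])
      (p ![1, 0, 0] * (r ![0, 0, 1] + s ![0, 1, 0]) + q ![1, 0, 0] * r ![0, 1, 0]
        - r ![1, 0, 0] * (p ![0, 0, 1] + q ![0, 1, 0]) - s ![1, 0, 0] * p ![0, 1, 0])
      (p ![1, 0, 0] * s ![0, 0, 1] + q ![1, 0, 0] * (r ![0, 0, 1] + s ![0, 1, 0])
        - r ![1, 0, 0] * q ![0, 0, 1] - s ![1, 0, 0] * (p ![0, 0, 1] + q ![0, 1, 0]))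
      (q ![1, 0, 0] * s ![0, 0, 1] - s ![1, 0, 0] * q ![0, 0, 1])
    obtain ⟨σ, t, hst, e1, e2⟩ := two_by_two (a * p ![1, 0, 0] + b * q ![1, 0, 0])
      (a * (a * p ![0, 1, 0] + b * p ![0, 0, 1]) + b * (a * q ![0, 1, 0] + b * q ![0, 0, 1]))
      (a * r ![1, 0, 0] + b * s ![1, 0, 0])
      (a * (a * r ![0, 1, 0] + b * r ![0, 0, 1]) + b * (a * s ![0, 1, 0] + b * s ![0, 0, 1]))
      (by linear_combination hF)
    have f1 : a * p ![σ, t * a, t * b] + b * q ![σ, t * a, t * b] = 0 := by
      rw [hcomb, hcomb]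
      linear_combination e1
    have f2 : a * r ![σ, t * a, t * b] + b * s ![σ, t * a, t * b] = 0 := by
      rw [hcomb, hcomb]
      linear_combination e2
    have hdet : p ![σ, t * a, t * b] * s ![σ, t * a, t * b]
        - q ![σ, t * a, t * b] * r ![σ, t * a, t * b] = 0 := by
      rcases hab with ha | hb
      · have : a * (p ![σ, t * a, t * b] * s ![σ, t * a, t * b]
          - q ![σ, t * a, t * b] * r ![σ, t * a, t * b]) = 0 := by
          linear_combination s ![σ, t * a, t * b] * f1 - q ![σ, t * a, t * b] * f2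
        exact (mul_eq_zero.mp this).resolve_left ha
      · have : b * (p ![σ, t * a, t * b] * s ![σ, t * a, t * b]
          - q ![σ, t * a, t * b] * r ![σ, t * a, t * b]) = 0 := by
          linear_combination p ![σ, t * a, t * b] * f2 - r ![σ, t * a, t * b] * f1
        exact (mul_eq_zero.mp this).resolve_left hb
    rw [h] at hdet
    have h0 := hno ![σ, t * a, t * b]
      (by
        simp only [Matrix.cons_val_one, Matrix.cons_val_zero, Matrix.cons_val]
        linear_combination t * f1)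
      (by
        simp only [Matrix.cons_val_one, Matrix.cons_val_zero, Matrix.cons_val]
        linear_combination t * f2)
      ((mul_eq_zero.mp hdet).resolve_left hc)
    have g0 : σ = 0 := congr_fun h0 0
    have g1 : t * a = 0 := congr_fun h0 1
    have g2 : t * b = 0 := congr_fun h0 2
    have ht : t ≠ 0 := by
      rcases hst with h | h
      · exact absurd g0 h
      · exact h
    rcases hab with h | h
    · exact h ((mul_eq_zero.mp g1).resolve_left ht)
    · exact h ((mul_eq_zero.mp g2).resolve_left ht)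

/-- the six monomials -/
noncomputable def mon (k : Fin 6) (x : V3) : ℂ :=
  ![x 0 * x 0, x 0 * x 1, x 0 * x 2, x 1 * x 1, x 1 * x 2, x 2 * x 2] k

/-- the coefficients of a symmetric form -/
noncomputable def co (S : V3 →ₗ[ℂ] V3 →ₗ[ℂ] ℂ) : Fin 6 → ℂ :=
  ![S ![1, 0, 0] ![1, 0, 0], 2 * S ![1, 0, 0] ![0, 1, 0], 2 * S ![1, 0, 0] ![0, 0, 1],
    S ![0, 1, 0] ![0, 1, 0], 2 * S ![0, 1, 0] ![0, 0, 1], S ![0, 0, 1] ![0, 0, 1]]

lemma vec_eq (x : V3) : x = x 0 • ![1, 0, 0] + x 1 • ![0, 1, 0] + x 2 • ![0, 0, 1] := by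
  funext i
  fin_cases i <;> simp

lemma sum_co (S : V3 →ₗ[ℂ] V3 →ₗ[ℂ] ℂ) (hS : ∀ u v, S u v = S v u) (x : V3) :
    ∑ k, co S k * mon k x = S x x := by
  conv_rhs => rw [vec_eq x]
  simp only [map_add, map_smul, smul_eq_mul, LinearMap.add_apply, LinearMap.smul_apply]
  rw [hS ![0, 1, 0] ![1, 0, 0], hS ![0, 0, 1] ![1, 0, 0], hS ![0, 0, 1] ![0, 1, 0]]
  simp only [Fin.sum_univ_succ, Fin.sum_univ_zero, co, mon]
  simp
  ring

/-- **Row R1.** -/
theorem socle (M : Fin 2 → Fin 2 → ((Fin 3 → ℂ) →ₗ[ℂ] ℂ))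
    (B : (Fin 3 → ℂ) →ₗ[ℂ] (Fin 3 → ℂ) →ₗ[ℂ] ℂ)
    (hno : ∀ x : Fin 3 → ℂ, x 1 * M 0 0 x + x 2 * M 0 1 x = 0 →
      x 1 * M 1 0 x + x 2 * M 1 1 x = 0 → B x x = 0 → x = 0)
    (l : Fin 3 → ((Fin 3 → ℂ) →ₗ[ℂ] ℂ))
    (h : ∀ x, x 0 * (M 0 0 x * M 1 1 x - M 0 1 x * M 1 0 x) =
      l 0 x * (x 1 * M 0 0 x + x 2 * M 0 1 x) + l 1 x * (x 1 * M 1 0 x + x 2 * M 1 1 x)
        + l 2 x * B x x) : False := by
  let C : Fin 3 → V3 →ₗ[ℂ] V3 →ₗ[ℂ] ℂ := ![pr (X 1) (M 0 0) + pr (X 2) (M 0 1),
    pr (X 1) (M 1 0) + pr (X 2) (M 1 1), B]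
  let D : V3 →ₗ[ℂ] V3 →ₗ[ℂ] ℂ := pr (M 0 0) (M 1 1) - pr (M 0 1) (M 1 0)
  have hC0 : ∀ x, C 0 x x = x 1 * M 0 0 x + x 2 * M 0 1 x := by
    intro x
    simp only [C, Matrix.cons_val_zero, LinearMap.add_apply, pr_apply, X_apply]
  have hC1 : ∀ x, C 1 x x = x 1 * M 1 0 x + x 2 * M 1 1 x := by
    intro x
    simp only [C, Matrix.cons_val_one, Matrix.cons_val_zero, LinearMap.add_apply, pr_apply,
      X_apply]
  have hC2 : ∀ x, C 2 x x = B x x := by
    intro x
    rfl
  have hD : ∀ x, D x x = M 0 0 x * M 1 1 x - M 0 1 x * M 1 0 x := by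
    intro x
    simp only [D, LinearMap.sub_apply, pr_apply]
  obtain ⟨τ, hτ, m0, n0, o0, hne⟩ := exists_tau (fun j x => C j x x)
  have hτm : ∀ (m : V3 →ₗ[ℂ] ℂ) (j : Fin 3), τ (fun x => m x * C j x x) = 0 := by
    intro m j
    have h1 : (fun x : V3 => m x * C j x x) = m ![1, 0, 0] • (fun x : V3 => x 0 * C j x x)
        + m ![0, 1, 0] • (fun x : V3 => x 1 * C j x x)
        + m ![0, 0, 1] • (fun x : V3 => x 2 * C j x x) := by
      funext x
      have h2 : m x = x 0 * m ![1, 0, 0] + x 1 * m ![0, 1, 0] + x 2 * m ![0, 0, 1] := by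
        conv_lhs => rw [vec_eq x]
        simp only [map_add, map_smul, smul_eq_mul]
      simp only [Pi.add_apply, Pi.smul_apply, smul_eq_mul]
      rw [h2]
      ring
    rw [h1, map_add, map_add, map_smul, map_smul, map_smul, hτ, hτ, hτ]
    simp
  have hτD : ∀ i : Fin 3, τ (fun x => x i * D x x) = 0 := by
    have d0 : (fun x : V3 => x 0 * D x x) = (fun x => l 0 x * C 0 x x) + (fun x => l 1 x * C 1 x x)
        + (fun x => l 2 x * C 2 x x) := by
      funext x
      simp only [Pi.add_apply]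
      rw [hD, h x, hC0, hC1, hC2]
    have d1 : (fun x : V3 => x 1 * D x x) = (fun x => M 1 1 x * C 0 x x)
        - (fun x => M 0 1 x * C 1 x x) := by
      funext x
      simp only [Pi.sub_apply]
      rw [hD, hC0, hC1]
      ring
    have d2 : (fun x : V3 => x 2 * D x x) = (fun x => M 0 0 x * C 1 x x)
        - (fun x => M 1 0 x * C 0 x x) := by
      funext x
      simp only [Pi.sub_apply]
      rw [hD, hC0, hC1]
      ring
    intro i
    fin_cases i
    · show τ (fun x => x 0 * D x x) = 0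
      rw [d0, map_add, map_add, hτm, hτm, hτm]
      simp
    · show τ (fun x => x 1 * D x x) = 0
      rw [d1, map_sub, hτm, hτm]
      simp
    · show τ (fun x => x 2 * D x x) = 0
      rw [d2, map_sub, hτm, hτm]
      simp
  let Γ : (Fin 6 → ℂ) →ₗ[ℂ] (Fin 3 → ℂ) :=
    LinearMap.pi fun i => ∑ k, (τ (fun x => x i * mon k x)) • (LinearMap.proj k)
  have hΓ : ∀ g i, Γ g i = τ (fun x => x i * ∑ k, g k * mon k x) := by
    intro g i
    have h1 : (fun x : V3 => x i * ∑ k, g k * mon k x) =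
        ∑ k, g k • (fun x : V3 => x i * mon k x) := by
      funext x
      rw [Finset.sum_apply, Finset.mul_sum]
      refine Finset.sum_congr rfl fun k _ => ?_
      simp only [Pi.smul_apply, smul_eq_mul]
      ring
    rw [h1, map_sum]
    simp only [Γ, LinearMap.pi_apply, LinearMap.sum_apply, LinearMap.smul_apply,
      LinearMap.proj_apply, smul_eq_mul, map_smul]
    exact Finset.sum_congr rfl fun k _ => mul_comm _ _
  have hsurj : LinearMap.range Γ = ⊤ := by
    by_contra hlt
    obtain ⟨f, hf, hle⟩ := Submodule.exists_le_ker_of_lt_top _ (lt_top_iff_ne_top.mpr hlt)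
    apply hne
    refine tri_zero τ (fun j => sy (C j)) (fun j => sy_symm (C j)) ?_ ?_ f hf ?_ m0 n0 o0
    · intro x hx
      apply hno
      · rw [← hC0, ← sy_self]
        exact hx 0
      · rw [← hC1, ← sy_self]
        exact hx 1
      · rw [← hC2, ← sy_self]
        exact hx 2
    · intro m j
      have h1 := hτm m j
      simp only [sy_self]
      exact h1
    · intro m n
      have h1 : f (Γ (co (sy (pr m n)))) = 0 := by
        have : Γ (co (sy (pr m n))) ∈ LinearMap.ker f := hle (LinearMap.mem_range_self _ _)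
        exact LinearMap.mem_ker.mp this
      have h2 : ∀ i, Γ (co (sy (pr m n))) i = τ (fun x => x i * (m x * n x)) := by
        intro i
        rw [hΓ]
        congr 1
        funext x
        rw [sum_co _ (sy_symm _), sy_self, pr_apply]
      rw [vec_eq (Γ (co (sy (pr m n))))] at h1
      simp only [map_add, map_smul, smul_eq_mul] at h1
      rw [h2, h2, h2] at h1
      have h3 : (fun x : V3 => f x * m x * n x) =
          f ![1, 0, 0] • (fun x : V3 => x 0 * (m x * n x))
          + f ![0, 1, 0] • (fun x : V3 => x 1 * (m x * n x))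
          + f ![0, 0, 1] • (fun x : V3 => x 2 * (m x * n x)) := by
        funext x
        have h2 : f x = x 0 * f ![1, 0, 0] + x 1 * f ![0, 1, 0] + x 2 * f ![0, 0, 1] := by
          conv_lhs => rw [vec_eq x]
          simp only [map_add, map_smul, smul_eq_mul]
        simp only [Pi.add_apply, Pi.smul_apply, smul_eq_mul]
        rw [h2]
        ring
      rw [h3]
      simp only [map_add, map_smul, smul_eq_mul]
      linear_combination h1
  have hk3 : finrank ℂ (LinearMap.ker Γ) = 3 := by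
    have h1 := LinearMap.finrank_range_add_finrank_ker Γ
    rw [hsurj, finrank_top, Module.finrank_fin_fun, Module.finrank_fin_fun] at h1
    omega
  have hmem : ∀ j, co (sy (C j)) ∈ LinearMap.ker Γ := by
    intro j
    rw [LinearMap.mem_ker]
    funext i
    rw [hΓ]
    simp only [sum_co _ (sy_symm _), sy_self]
    exact hτ i j
  have hmemD : co (sy D) ∈ LinearMap.ker Γ := by
    rw [LinearMap.mem_ker]
    funext i
    rw [hΓ]
    simp only [sum_co _ (sy_symm _), sy_self]
    exact hτD i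
  let v : Fin 4 → LinearMap.ker Γ := ![⟨_, hmem 0⟩, ⟨_, hmem 1⟩, ⟨_, hmem 2⟩, ⟨_, hmemD⟩]
  have hdep : ¬ LinearIndependent ℂ v := by
    intro hli
    have h1 := hli.fintype_card_le_finrank
    rw [hk3, Fintype.card_fin] at h1
    omega
  rw [Fintype.not_linearIndependent_iff] at hdep
  obtain ⟨g, hg, i, hi⟩ := hdep
  have hrel : ∀ x : V3, g 0 * C 0 x x + g 1 * C 1 x x + g 2 * C 2 x x + g 3 * D x x = 0 := by
    intro x
    have h1 : g 0 • co (sy (C 0)) + g 1 • co (sy (C 1)) + g 2 • co (sy (C 2))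
        + g 3 • co (sy D) = 0 := by
      have h2 := congr_arg Subtype.val hg
      rw [Fin.sum_univ_four] at h2
      exact h2
    have h3 : ∑ k, (g 0 • co (sy (C 0)) + g 1 • co (sy (C 1)) + g 2 • co (sy (C 2))
        + g 3 • co (sy D)) k * mon k x = 0 := by
      rw [h1]
      simp
    simp only [Pi.add_apply, Pi.smul_apply, smul_eq_mul, add_mul, mul_assoc,
      Finset.sum_add_distrib, ← Finset.mul_sum] at h3
    rw [sum_co _ (sy_symm _), sum_co _ (sy_symm _), sum_co _ (sy_symm _), sum_co _ (sy_symm _),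
      sy_self, sy_self, sy_self, sy_self] at h3
    exact h3
  have hC2' : ∀ x, x = 0 ∨ C 0 x x ≠ 0 ∨ C 1 x x ≠ 0 ∨ C 2 x x ≠ 0 := by
    intro x
    by_contra hcon
    push Not at hcon
    obtain ⟨c0, c1, c2, c3⟩ := hcon
    exact c0 (hno x (by rw [← hC0]; exact c1) (by rw [← hC1]; exact c2)
      (by rw [← hC2]; exact c3))
  by_cases hg3 : g 3 = 0
  · have hrel' : ∀ x : V3, g 0 * C 0 x x + g 1 * C 1 x x + g 2 * C 2 x x = 0 := by
      intro x
      have := hrel x
      rw [hg3, zero_mul, add_zero] at this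
      exact this
    by_cases g0 : g 0 = 0
    · by_cases g1 : g 1 = 0
      · have g2 : g 2 ≠ 0 := by
          intro g2
          apply hi
          fin_cases i <;> assumption
        obtain ⟨x, hx, h1, h2⟩ := two_conics (C 0) (C 1)
        have h3 := hrel' x
        rw [g0, g1, zero_mul, zero_mul, zero_add, zero_add] at h3
        rcases hC2' x with h4 | h4 | h4 | h4
        · exact hx h4
        · exact h4 h1
        · exact h4 h2
        · exact h4 ((mul_eq_zero.mp h3).resolve_left g2)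
      · obtain ⟨x, hx, h1, h2⟩ := two_conics (C 0) (C 2)
        have h3 := hrel' x
        rw [g0, h2, mul_zero, zero_mul, add_zero, zero_add] at h3
        rcases hC2' x with h4 | h4 | h4 | h4
        · exact hx h4
        · exact h4 h1
        · exact h4 ((mul_eq_zero.mp h3).resolve_left g1)
        · exact h4 h2
    · obtain ⟨x, hx, h1, h2⟩ := two_conics (C 1) (C 2)
      have h3 := hrel' x
      rw [h1, h2, mul_zero, mul_zero, add_zero, add_zero] at h3
      rcases hC2' x with h4 | h4 | h4 | h4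
      · exact hx h4
      · exact h4 ((mul_eq_zero.mp h3).resolve_left g0)
      · exact h4 h1
      · exact h4 h2
  · -- `D = a q 1 + b q 2 + c q 3`
    have hDc : ∀ x : V3, D x x = (-(g 0) / g 3) * C 0 x x + (-(g 1) / g 3) * C 1 x x
        + (-(g 2) / g 3) * C 2 x x := by
      intro x
      have h1 := hrel x
      field_simp
      linear_combination h1
    set a := -(g 0) / g 3 with ha
    set b := -(g 1) / g 3 with hb
    refine det_mult (M 0 0 - b • X 2) (M 0 1 + b • X 1) (M 1 0 + a • X 2) (M 1 1 - a • X 1) B ?_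
      (-(g 2) / g 3) ?_
    · intro x h1 h2 h3
      simp only [LinearMap.sub_apply, LinearMap.add_apply, LinearMap.smul_apply, smul_eq_mul,
        X_apply] at h1 h2
      exact hno x (by linear_combination h1) (by linear_combination h2) h3
    · intro x
      have h1 := hDc x
      rw [hD, hC0, hC1, hC2] at h1
      simp only [LinearMap.sub_apply, LinearMap.add_apply, LinearMap.smul_apply, smul_eq_mul,
        X_apply]
      linear_combination h1

end Vale.Agent.P287.R2.H11
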